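import Vale.Agent.Lib.P028K.KLDefs

/-! Part KLpar: numerical facts on the parameters. -/

open Finset

namespace Vale.Agent.Lib.P028K

open Vale.Agent.Lib.P028
open Vale.Agent.Lib.P028T

noncomputable section

/-- Numerical facts, for large `Y`. -/
theorem par_facts (ε ν₀ : ℝ) (hε : 0 < ε) (hε1 : ε < 1) (hν : 0 < ν₀) (hν1 : ν₀ ≤ 1 / 64) :
    ∃ Y0 : ℕ, ∀ Y : ℕ, Y0 ≤ Y → let p := par ε ν₀ Y
      100 * p.lam ≤ p.P ∧ p.lam ^ 8 ≤ p.Q0 ∧ p.P ≤ p.Q0 ∧ 1000 ≤ p.lam ∧ 2 ≤ p.T ∧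
      (p.T:ℝ) ≤ 2 * (Y:ℝ) ^ ν₀ ∧ p.lam ≤ Real.log Y ∧
      (p.lam ^ (p.j2 : ℕ) ≤ (p.T:ℝ) ^ ((1:ℝ) / 16)) ∧
      Real.log (p.lam) * ((p.j2 : ℝ) + 1) * 16 ≥ Real.log p.T := by
  have h1 : Filter.Tendsto (fun Y : ℕ => Real.log (Y:ℝ)) Filter.atTop Filter.atTop :=
    Real.tendsto_log_atTop.comp tendsto_natCast_atTop_atTop
  have h2 := (tendsto_rpow_atTop hε).comp h1
  have h3 := (tendsto_rpow_atTop (sub_pos.2 hε1)).comp h1
  obtain ⟨Y0, hY0⟩ := Filter.eventually_atTop.1 ((h1.eventually_ge_atTop 100).and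
    ((h2.eventually_ge_atTop 100).and (h3.eventually_ge_atTop 20)))
  refine ⟨Y0, fun Y hY => ?_⟩
  obtain ⟨hL, hLe, hLe1⟩ := hY0 Y hY
  simp only [Function.comp] at hLe hLe1
  intro p
  have hYpos : 0 < (Y:ℝ) := by
    rcases Nat.eq_zero_or_pos Y with h | h
    · subst h; simp at hL; linarith
    · exact_mod_cast h
  have hY1 : (1:ℝ) < Y := by
    by_contra hc
    have hc' : (Y:ℝ) ≤ 1 := not_lt.1 hc
    have := Real.log_nonpos hYpos.le hc'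
    linarith
  set L := Real.log (Y:ℝ) with hLdef
  have hLpos : 0 < L := by linarith
  have hKb : (p.Kb:ℝ) = (⌈L ^ (1 - ε)⌉₊ : ℝ) := by rw [p.hKb]
  have hK1 : L ^ (1 - ε) ≤ (p.Kb:ℝ) := by rw [hKb]; exact Nat.le_ceil _
  have hK2 : (p.Kb:ℝ) < L ^ (1 - ε) + 1 := by
    rw [hKb]; exact Nat.ceil_lt_add_one (by positivity)
  have hlam : p.lam = 50 * (p.Kb:ℝ) := by rw [p.hlam]
  have hl1000 : 1000 ≤ p.lam := by rw [hlam]; linarith
  have hP : p.lam ^ 2 ≤ (p.P:ℝ) := by rw [p.hP]; exact Nat.le_ceil _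
  have hQ : p.lam ^ 16 ≤ (p.Q0:ℝ) := by rw [p.hQ0]; exact Nat.le_ceil _
  have hl1 : 1 ≤ p.lam := by linarith
  have hpow8 : p.lam ^ 8 ≤ p.lam ^ 16 := pow_le_pow_right₀ hl1 (by norm_num)
  have hpow2 : p.lam ^ 2 ≤ p.lam ^ 16 := pow_le_pow_right₀ hl1 (by norm_num)
  have hx1 : (1:ℝ) < (Y:ℝ) ^ ν₀ := Real.one_lt_rpow hY1 hν
  have hT2 : 2 ≤ p.T := by
    rw [p.hT]
    have : 1 < ⌈(Y:ℝ) ^ ν₀⌉₊ := Nat.lt_ceil.2 (by exact_mod_cast hx1)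
    omega
  have hTle : (p.T:ℝ) ≤ 2 * (Y:ℝ) ^ ν₀ := by
    rw [p.hT]
    have := Nat.ceil_lt_add_one (a := (Y:ℝ) ^ ν₀) (by positivity)
    linarith
  have hsplit : L ^ (1 - ε) * L ^ ε = L := by
    rw [← Real.rpow_add hLpos]; simp
  have hbig : 100 * L ^ (1 - ε) ≤ L := by
    have hnn : 0 ≤ L ^ (1 - ε) := by positivity
    nlinarith
  have hlamL : p.lam ≤ L := by rw [hlam]; linarith
  have hloglam : 0 < Real.log p.lam := Real.log_pos (by linarith)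
  have hTpos : (0:ℝ) < p.T := by exact_mod_cast (by omega : 0 < p.T)
  have hlogT : 0 ≤ Real.log (p.T:ℝ) := by
    apply Real.log_nonneg
    exact_mod_cast (by omega : 1 ≤ p.T)
  have hquot : 0 ≤ Real.log (p.T:ℝ) / (16 * Real.log p.lam) := by positivity
  have hj1 : (p.j2:ℝ) ≤ Real.log (p.T:ℝ) / (16 * Real.log p.lam) := by
    rw [p.hj2]; exact Nat.floor_le hquot
  have hj2 : Real.log (p.T:ℝ) / (16 * Real.log p.lam) < (p.j2:ℝ) + 1 := by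
    rw [p.hj2]; exact Nat.lt_floor_add_one _
  have hd : 0 < 16 * Real.log p.lam := by positivity
  refine ⟨?_, ?_, ?_, hl1000, hT2, hTle, hlamL, ?_, ?_⟩
  · nlinarith
  · linarith
  · rw [p.hP, p.hQ0]; exact Nat.ceil_mono hpow2
  · have hlampow : 0 < p.lam ^ p.j2 := by positivity
    have hTr : 0 < (p.T:ℝ) ^ ((1:ℝ) / 16) := by positivity
    rw [← Real.log_le_log_iff hlampow hTr, Real.log_pow, Real.log_rpow hTpos]
    have := (le_div_iff₀ hd).1 hj1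
    nlinarith
  · have := (div_lt_iff₀ hd).1 hj2
    nlinarith

end

end Vale.Agent.Lib.P028K
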